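import Vale.Agent.P361.Main

/-!
One half of Bloch's T^(3/2) law for the spin-n/2 ferromagnet, with the sharp coefficient.
-/

namespace Vale.Agent.Results.P361.BlochUpper

open Filter Topology Vale.Agent.P361

theorem result : ∀ n : ℕ, 0 < n →
    (∀ β : ℝ, 0 < β → ∀ h : ℝ,
      Tendsto (fun N => finitePressure n N β h) atTop (𝓝 (pressure n β h))) ∧
    (∀ β : ℝ, 0 < β → HasDerivWithinAt (pressure n β) (spontMag n β) (Set.Ioi 0) 0) ∧
    (∀ c : ℝ,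
      c < (∑' k : ℕ, 1 / ((k : ℝ) + 1) ^ (3 / 2 : ℝ))
            / (8 * Real.pi ^ (3 / 2 : ℝ) * ((n : ℝ) / 2) ^ (3 / 2 : ℝ)) →
      ∀ᶠ β in atTop, c < β ^ (3 / 2 : ℝ) * ((n : ℝ) / 2 - spontMag n β)) :=
  fun n hn => ⟨fun _ hβ h => pressure_exists n hβ h, fun _ hβ => spontMag_hasDeriv n hβ,
    bloch_one_sided hn⟩

end Vale.Agent.Results.P361.BlochUpper
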